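import Mathlib

/-!
P339 (2-to-1 games with perfect completeness), the smallest alphabet `q = 2`:
for 2-to-1 games with alphabets `[4]` and `[2]`, the labelings that satisfy every constraint are
exactly the solutions of a system of affine equations over the field with two elements,
one equation per constraint.
-/

namespace Vale.Agent.Results.P339.A_AlphabetTwoLinear

/-- The two bits of a left label in `Fin 4`. -/
def bits : Fin 4 ≃ ZMod 2 × ZMod 2 where
  toFun a := (((a : ℕ) / 2 : ℕ), ((a : ℕ) % 2 : ℕ))
  invFun p := ⟨2 * p.1.val + p.2.val, by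
    have h1 := ZMod.val_lt p.1
    have h2 := ZMod.val_lt p.2
    omega⟩
  left_inv := by decide
  right_inv := by decide

/-- The bit of a right label in `Fin 2`. -/
def bit : Fin 2 ≃ ZMod 2 where
  toFun b := ((b : ℕ) : ZMod 2)
  invFun z := ⟨z.val, ZMod.val_lt z⟩
  left_inv := by decide
  right_inv := by decide

theorem affine_of_balanced :
    ∀ π : Fin 4 → Fin 2, (∀ b, (Finset.univ.filter (fun a => π a = b)).card = 2) →
      ∃ c0 c1 c2 : ZMod 2, ∀ a, bit (π a) = c0 + c1 * (bits a).1 + c2 * (bits a).2 := by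
  decide

theorem result :
    ∃ (φ : Fin 4 ≃ ZMod 2 × ZMod 2) (ψ : Fin 2 ≃ ZMod 2),
      ∀ (U V E : Type) (u : E → U) (v : E → V) (π : E → Fin 4 → Fin 2),
        (∀ e b, (Finset.univ.filter (fun a => π e a = b)).card = 2) →
        ∃ c0 c1 c2 : E → ZMod 2, ∀ (A : U → Fin 4) (B : V → Fin 2),
          (∀ e, π e (A (u e)) = B (v e)) ↔
            ∀ e, ψ (B (v e)) = c0 e + c1 e * (φ (A (u e))).1 + c2 e * (φ (A (u e))).2 := by
  refine ⟨bits, bit, ?_⟩
  intro U V E u v π hπ
  choose c0 c1 c2 hc using fun e => affine_of_balanced (π e) (hπ e)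
  refine ⟨c0, c1, c2, ?_⟩
  intro A B
  constructor
  · intro h e
    rw [← h e]
    exact hc e (A (u e))
  · intro h e
    have h1 := h e
    rw [← hc e (A (u e))] at h1
    exact (bit.injective h1).symm

end Vale.Agent.Results.P339.A_AlphabetTwoLinear
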